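import Vale.Agent.P181.H727.DesA
import Vale.Agent.P181.H699.Low7

set_option autoImplicit false

/-!
# P181, T7: the design of `DesA` as a `Top7` frame
-/

open scoped Classical

namespace Vale.Agent.P181.H727

open Finset Vale.Agent.P181.T7

namespace Dat

variable (P : Dat) (m : ℕ)

/-- the length of the column `c` -/
noncomputable def lenm (c : ℕ) : ℕ := ((range m).filter fun i => c < P.lam i).card

theorem lt_lenm (hm : ∀ i, m ≤ i → P.lam i = 0) (i c : ℕ) : i < P.lenm m c ↔ c < P.lam i := by
  have key : ∀ j, c < P.lam j → j + 1 ≤ P.lenm m c := by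
    intro j hj
    have hjm : j < m := by
      by_contra h
      rw [hm j (by omega)] at hj
      omega
    have hsub : range (j + 1) ⊆ (range m).filter fun i => c < P.lam i := by
      intro k hk
      rw [mem_range] at hk
      rw [mem_filter, mem_range]
      exact ⟨by omega, lt_of_lt_of_le hj (P.hlam (by omega))⟩
    have := card_le_card hsub
    rwa [card_range] at this
  constructor
  · intro h
    by_contra hcon
    have hsub : ((range m).filter fun i => c < P.lam i) ⊆ range i := by
      intro k hk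
      rw [mem_filter] at hk
      rw [mem_range]
      by_contra hk'
      exact hcon (lt_of_lt_of_le hk.2 (P.hlam (by omega)))
    have := card_le_card hsub
    rw [card_range] at this
    unfold lenm at h
    omega
  · intro h
    exact key i h

theorem lenm_le (c : ℕ) : P.lenm m c ≤ m := by
  have := card_filter_le (range m) (fun i => c < P.lam i)
  rwa [card_range] at this

theorem srv_cases (i : Fin P.R) (c : ℕ) : (∃ q, P.srv c i = Sum.inr q) ∨
    ∃ g, P.srv c i = Sum.inl ⟨i, g⟩ := by
  by_cases h : c ∈ P.mrk i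
  · exact Or.inl (P.srv_of_mrk i h)
  · exact Or.inr ⟨_, P.srv_pure i h⟩

/-- the frame -/
noncomputable def top7 (hm : ∀ i, m ≤ i → P.lam i = 0) :
    Top7 m P.R P.N P.T (fun t => (t.1 : ℕ)) (Fin (P.lam 0)) where
  len c := P.lenm m c
  len_le c := P.lenm_le m c
  srv c i := P.srv c i
  serve := by
    intro c i hi hiR
    rw [P.lt_lenm m hm] at hi
    rcases P.serve i hiR c hi with h | ⟨h1, h2, h3, h4⟩
    · exact Or.inl h
    · right
      have hlen : P.lenm m c ≤ P.R := by
        by_contra hcon
        have : P.R < P.lenm m c := by omega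
        rw [P.lt_lenm m hm] at this
        omega
      exact ⟨hlen, h3, fun i' hi' hne => h4 i' (by omega) hne⟩

variable {m} (hm : ∀ i, m ≤ i → P.lam i = 0)

theorem top7_rows (i : Fin m) :
    (univ.filter fun c => (i : ℕ) < (P.top7 m hm).len c).card = P.lam i := by
  have h1 : (univ.filter fun c => (i : ℕ) < (P.top7 m hm).len c) =
      univ.filter fun c : Fin (P.lam 0) => (c : ℕ) < P.lam i := by
    ext c
    simp only [mem_filter, mem_univ, true_and]
    exact P.lt_lenm m hm i c
  have hle : P.lam i ≤ P.lam 0 := P.hlam (Nat.zero_le _)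
  rw [h1]
  have h2 : (univ.filter fun c : Fin (P.lam 0) => (c : ℕ) < P.lam i).map Fin.valEmbedding =
      range (P.lam i) := by
    ext c
    simp only [mem_map, mem_filter, mem_univ, true_and, Fin.valEmbedding_apply, mem_range]
    constructor
    · rintro ⟨c', hc', rfl⟩
      exact hc'
    · intro hc
      exact ⟨⟨c, by omega⟩, hc, rfl⟩
  rw [← card_map, h2, card_range]

/-- Counting over the columns of row `i`. -/
theorem card_cols (i : ℕ) (p : ℕ → Prop) [DecidablePred p] :
    (univ.filter fun c : Fin (P.lam 0) => (c : ℕ) < P.lam i ∧ p c).card =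
      ((range (P.lam i)).filter fun c => p c).card := by
  have hle : P.lam i ≤ P.lam 0 := P.hlam (Nat.zero_le _)
  have h2 : (univ.filter fun c : Fin (P.lam 0) => (c : ℕ) < P.lam i ∧ p c).map Fin.valEmbedding =
      (range (P.lam i)).filter fun c => p c := by
    ext c
    simp only [mem_map, mem_filter, mem_univ, true_and, Fin.valEmbedding_apply, mem_range]
    constructor
    · rintro ⟨c', hc', rfl⟩
      exact hc'
    · intro hc
      exact ⟨⟨c, by omega⟩, hc, rfl⟩
  rw [← card_map, h2]

theorem top7_typ (q : Fin P.N) {i : ℕ} (hi : i < P.R) : (P.top7 m hm).typ q i = P.u q i := by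
  rw [← P.typ q i hi, ← P.card_cols i (fun c => P.srv c i = Sum.inr q), Top7.typ]
  congr 1
  ext c
  simp only [mem_filter, mem_univ, true_and]
  constructor
  · rintro ⟨_, h1, h2⟩
    exact ⟨(P.lt_lenm m hm i c).mp h1, h2⟩
  · rintro ⟨h1, h2⟩
    exact ⟨hi, (P.lt_lenm m hm i c).mpr h1, h2⟩

theorem top7_inc (t : P.T) : (P.top7 m hm).inc (Sum.inl t) = P.k := by
  rw [← P.inc t, ← P.card_cols t.1 (fun c => P.srv c t.1 = Sum.inl t), Top7.inc, card_filter]
  refine sum_congr rfl fun c _ => ?_
  have hset : ((range ((P.top7 m hm).len c)).filter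
      (fun i => i < P.R ∧ (P.top7 m hm).srv c i = Sum.inl t)) =
      if (c : ℕ) < P.lam t.1 ∧ P.srv c t.1 = Sum.inl t then {(t.1 : ℕ)} else ∅ := by
    ext i
    rw [mem_filter, mem_range]
    have hsrv : ∀ hi : i < P.R, P.srv c i = Sum.inl t → i = t.1 := by
      intro hi h
      rcases P.srv_cases ⟨i, hi⟩ c with ⟨q, hq⟩ | ⟨g, hg⟩
      · have : (Sum.inr q : P.T ⊕ Fin P.N) = Sum.inl t := hq.symm.trans h
        exact absurd this (by simp)
      · have : (Sum.inl ⟨⟨i, hi⟩, g⟩ : P.T ⊕ Fin P.N) = Sum.inl t := hg.symm.trans h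
        have h3 := Sum.inl.inj this
        rw [← h3]
    constructor
    · rintro ⟨h1, h2, h3⟩
      have h3' : P.srv c i = Sum.inl t := h3
      have hit := hsrv h2 h3'
      subst hit
      have h1' : (c : ℕ) < P.lam t.1 := (P.lt_lenm m hm _ c).mp h1
      rw [if_pos ⟨h1', h3'⟩]
      simp
    · intro h
      split_ifs at h with hc
      · rw [mem_singleton] at h
        subst h
        exact ⟨(P.lt_lenm m hm _ c).mpr hc.1, t.1.2, hc.2⟩
      · simp at h
  have e := congrArg Finset.card hset
  have e2 : (if (c : ℕ) < P.lam t.1 ∧ P.srv c t.1 = Sum.inl t then ({(t.1 : ℕ)} : Finset ℕ)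
      else ∅).card = if (c : ℕ) < P.lam t.1 ∧ P.srv c t.1 = Sum.inl t then 1 else 0 := by
    split_ifs <;> simp
  have e3 : ((range ((P.top7 m hm).len c)).filter
      (fun i => i < P.R ∧ (P.top7 m hm).srv c i = Sum.inl t)).card =
      if (c : ℕ) < P.lam t.1 ∧ P.srv c t.1 = Sum.inl t then 1 else 0 := e.trans e2
  rw [← e3]
  congr 1
  ext i
  simp only [mem_filter]

theorem card_T : Fintype.card P.T = ∑ i, P.w i := by
  simp [Fintype.card_sigma]

/-- **Forced**, for every lower part. -/
theorem top7_forced (hw : StrictAnti P.w) (t : ℕ → ℕ)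
    (lo : (c : Fin (P.lam 0)) → Fin ((P.top7 m hm).len c - P.R) → Fin P.N) :
    (P.top7 m hm).Forced t lo := by
  intro χ h1 h2 h3 h4
  have hcard : ∀ i : Fin P.R, (univ.filter fun p => χ p = some i).card = P.w i := by
    intro i
    rw [h1 i, ← P.card_cls i]
    congr 1
    ext t
    simp [Fin.ext_iff]
  have hcol : ∀ c < P.lam (P.R - 1), ∀ i < P.R, ∀ i' < P.R, i ≠ i' →
      χ (P.srv c i) = χ (P.srv c i') → χ (P.srv c i) = none := by
    intro c hc i hi i' hi' hne heq
    have hc0 : c < P.lam 0 := lt_of_lt_of_le hc (P.hlam (Nat.zero_le _))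
    have hl : ∀ j, j < P.R → j < (P.top7 m hm).len ⟨c, hc0⟩ := by
      intro j hj
      refine (P.lt_lenm m hm j c).mpr (lt_of_lt_of_le hc (P.hlam (by omega)))
    have hJ : ∀ j (hj : j < P.R), (P.top7 m hm).J ⟨c, hc0⟩ (lo ⟨c, hc0⟩) ⟨j, hl j hj⟩ =
        P.srv c j := by
      intro j hj
      unfold Top7.J
      rw [dif_pos hj]
      rfl
    have := h2 ⟨c, hc0⟩ ⟨i, hl i hi⟩ ⟨i', hl i' hi'⟩ (by
      intro h
      exact hne (congrArg Fin.val h))
    rw [hJ i hi, hJ i' hi'] at this
    exact this heq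
  obtain ⟨g1, g2⟩ := P.forced hw χ hcard hcol
  exact ⟨fun x => ⟨x.1, g1 x, rfl⟩, g2⟩

end Dat

end Vale.Agent.P181.H727
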