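import Mathlib

set_option autoImplicit false
set_option linter.unusedSectionVars false

/-!
# P181, T7: private frames and linked columns force the labels

Abstract form (no columns): `Adj p p'` means that the letters `p`, `p'` lie at two different places
of one column. `χ` is a labelling of the letters by pure labels `some i`, `i < R`, or `none` (free).
* `frames`: (helper905) every free letter has two private frames;
* `link`: consecutive members of a chain of full tops differ in one row;
* `forced`: both together, sizes of the classes strictly decreasing: the labelling is the standard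
  one.
-/

namespace Vale.Agent.P181.H727

open Finset

section

variable {T Q : Type*} [Fintype T] [Fintype Q] {R : ℕ}

/-- number of pure labels = number of pure letters -/
theorem card_some (cls : T → Fin R) (χ : T ⊕ Q → Option (Fin R))
    (hcard : ∀ i : Fin R, (univ.filter fun p => χ p = some i).card =
      (univ.filter fun t => cls t = i).card) :
    (univ.filter fun p => χ p ≠ none).card = Fintype.card T := by
  classical
  have h1 : (univ.filter fun p => χ p ≠ none) =
      (univ : Finset (Fin R)).biUnion (fun i => univ.filter fun p => χ p = some i) := by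
    ext p
    simp only [mem_filter, mem_univ, true_and, mem_biUnion]
    constructor
    · intro h
      obtain ⟨i, hi⟩ := Option.ne_none_iff_exists'.mp h
      exact ⟨i, hi⟩
    · rintro ⟨i, hi⟩
      rw [hi]
      simp
  rw [h1, card_biUnion]
  · have h3 : Fintype.card T = ∑ i : Fin R, (univ.filter fun t => cls t = i).card := by
      rw [← card_univ]
      exact card_eq_sum_card_fiberwise (fun t _ => mem_univ (cls t))
    rw [h3]
    exact sum_congr rfl fun i _ => hcard i
  · intro i _ j _ hij
    rw [Function.onFun, disjoint_left]
    intro p hp hp'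
    simp only [mem_filter, mem_univ, true_and] at hp hp'
    rw [hp] at hp'
    exact hij (Option.some.inj hp')

/-- **private frames** (helper905): if every free letter `q` is adjacent to all letters of its two
private frames `fr q e`, and the letters of one frame are pairwise adjacent, then all pure labels
sit on pure letters. -/
theorem frames (cls : T → Fin R) (χ : T ⊕ Q → Option (Fin R))
    (hcard : ∀ i : Fin R, (univ.filter fun p => χ p = some i).card =
      (univ.filter fun t => cls t = i).card)
    (Adj : T ⊕ Q → T ⊕ Q → Prop)
    (hadj : ∀ p p', Adj p p' → χ p = χ p' → χ p = none)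
    (fr : Q → Bool → Fin R → T)
    (hinj : ∀ q e i q' e' i', fr q e i = fr q' e' i' → q = q' ∧ e = e')
    (hfull : ∀ q e i i', i ≠ i' → Adj (Sum.inl (fr q e i)) (Sum.inl (fr q e i')))
    (hq : ∀ q e i, Adj (Sum.inr q) (Sum.inl (fr q e i))) :
    (∀ t, χ (Sum.inl t) ≠ none) ∧ ∀ q, χ (Sum.inr q) = none := by
  classical
  -- every free letter with a pure label finds a letter with a free label in each frame
  have key : ∀ q, χ (Sum.inr q) ≠ none → ∀ e, ∃ i, χ (Sum.inl (fr q e i)) = none := by
    intro q hqn e
    by_contra hcon
    push Not at hcon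
    obtain ⟨j, hj⟩ := Option.ne_none_iff_exists'.mp hqn
    have hex : ∀ i, ∃ k, χ (Sum.inl (fr q e i)) = some k := fun i =>
      Option.ne_none_iff_exists'.mp (hcon i)
    choose f hf using hex
    have hfinj : Function.Injective f := by
      intro i i' hii
      by_contra hne
      exact hcon i (hadj _ _ (hfull q e i i' hne) (by rw [hf i, hf i', hii]))
    obtain ⟨i, hi⟩ := (Finite.injective_iff_surjective.mp hfinj) j
    exact hqn (hadj _ _ (hq q e i) (by rw [hj, hf i, hi]))
  set A : Finset Q := univ.filter fun q => χ (Sum.inr q) ≠ none with hA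
  set B : Finset T := univ.filter fun t => χ (Sum.inl t) = none with hB
  -- |A| = |B|
  have hAB : A.card = B.card := by
    have h1 := card_some cls χ hcard
    have h2 : (univ.filter fun p => χ p ≠ none).card =
        (univ.filter fun t : T => χ (Sum.inl t) ≠ none).card + A.card := by
      rw [hA, card_filter, card_filter, card_filter, Fintype.sum_sum_type]
    have h3 : (univ.filter fun t : T => χ (Sum.inl t) ≠ none).card + B.card = Fintype.card T := by
      rw [hB, ← card_univ, add_comm]
      exact card_filter_add_card_filter_not _
    omega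
  -- 2 |A| ≤ |B|
  have hle : A.card * 2 ≤ B.card := by
    have : ∀ x : {q // q ∈ A} × Bool, ∃ t, t ∈ B ∧ ∃ i, t = fr x.1.1 x.2 i := by
      rintro ⟨⟨q, hqA⟩, e⟩
      have hq' : χ (Sum.inr q) ≠ none := by
        simpa [hA] using hqA
      obtain ⟨i, hi⟩ := key q hq' e
      exact ⟨fr q e i, by simp [hB, hi], i, rfl⟩
    choose g hg hg' using this
    have hginj : Function.Injective g := by
      intro x y hxy
      obtain ⟨i, hi⟩ := hg' x
      obtain ⟨j, hj⟩ := hg' y
      have := hinj _ _ _ _ _ _ (hi.symm.trans (hxy.trans hj))
      exact Prod.ext (Subtype.ext this.1) this.2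
    have h4 : Fintype.card ({q // q ∈ A} × Bool) ≤ B.card := by
      rw [← card_univ, ← card_image_of_injective _ hginj]
      refine card_le_card ?_
      intro t ht
      obtain ⟨x, _, rfl⟩ := mem_image.mp ht
      exact hg x
    simpa using h4
  have hA0 : A.card = 0 := by omega
  have hB0 : B.card = 0 := by omega
  rw [card_eq_zero] at hA0 hB0
  constructor
  · intro t ht
    have : t ∈ B := by simp [hB, ht]
    rw [hB0] at this
    simp at this
  · intro q
    by_contra h
    have : q ∈ A := by simp [hA, h]
    rw [hA0] at this
    simp at this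

/-- **linked tops**: along a chain of full tops, two consecutive ones differing in at most one row,
the label of a row does not change. -/
theorem link_const (χ : T ⊕ Q → Option (Fin R))
    (hsome : ∀ t, χ (Sum.inl t) ≠ none)
    (Adj : T ⊕ Q → T ⊕ Q → Prop)
    (hadj : ∀ p p', Adj p p' → χ p = χ p' → χ p = none)
    (L : ℕ) (col : ℕ → Fin R → T)
    (hcol : ∀ c < L, ∀ i i', i ≠ i' → Adj (Sum.inl (col c i)) (Sum.inl (col c i')))
    (hstep : ∀ c, c + 1 < L → ∃ i, ∀ i', i' ≠ i → col (c + 1) i' = col c i') :
    ∀ c < L, ∀ i, χ (Sum.inl (col c i)) = χ (Sum.inl (col 0 i)) := by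
  classical
  have hex : ∀ t, ∃ k, χ (Sum.inl t) = some k := fun t =>
    Option.ne_none_iff_exists'.mp (hsome t)
  choose f hf using hex
  have hinj : ∀ c < L, Function.Injective (fun i => f (col c i)) := by
    intro c hc i i' hii
    by_contra hne
    exact hsome _ (hadj _ _ (hcol c hc i i' hne) (by rw [hf, hf]; exact congrArg some hii))
  intro c
  induction c with
  | zero => intro _ i; rfl
  | succ c ih =>
    intro hc i
    obtain ⟨i0, hi0⟩ := hstep c hc
    have ihc := ih (by omega)
    by_cases hi : i = i0
    · -- the missing label
      subst hi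
      rw [← ihc i]
      have hs1 := (Finite.injective_iff_surjective.mp (hinj (c + 1) hc))
      obtain ⟨j, hj⟩ := hs1 (f (col c i))
      by_cases hji : j = i
      · subst hji
        rw [hf, hf]
        exact congrArg some hj
      · exfalso
        have h1 : f (col c j) = f (col c i) := by
          have : f (col (c + 1) j) = f (col c i) := hj
          rw [hi0 j hji] at this
          exact this
        exact hji (hinj c (by omega) h1)
    · rw [hi0 i hi]
      exact ihc i

/-- **linked tops give a permutation of the rows**, and strictly decreasing class sizes give the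
identity. `col c i` has class `i`, and every pure letter occurs in the chain. -/
theorem link (cls : T → Fin R) (χ : T ⊕ Q → Option (Fin R))
    (hcard : ∀ i : Fin R, (univ.filter fun p => χ p = some i).card =
      (univ.filter fun t => cls t = i).card)
    (hsome : ∀ t, χ (Sum.inl t) ≠ none) (hnone : ∀ q, χ (Sum.inr q) = none)
    (Adj : T ⊕ Q → T ⊕ Q → Prop)
    (hadj : ∀ p p', Adj p p' → χ p = χ p' → χ p = none)
    (L : ℕ) (hL : 0 < L) (col : ℕ → Fin R → T)
    (hcol : ∀ c < L, ∀ i i', i ≠ i' → Adj (Sum.inl (col c i)) (Sum.inl (col c i')))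
    (hstep : ∀ c, c + 1 < L → ∃ i, ∀ i', i' ≠ i → col (c + 1) i' = col c i')
    (hcover : ∀ t, ∃ c < L, col c (cls t) = t)
    (hw : ∀ i i' : Fin R, i < i' → (univ.filter fun t => cls t = i').card <
      (univ.filter fun t => cls t = i).card) :
    ∀ t, χ (Sum.inl t) = some (cls t) := by
  classical
  have hconst := link_const χ hsome Adj hadj L col hcol hstep
  have hex : ∀ t, ∃ k, χ (Sum.inl t) = some k := fun t =>
    Option.ne_none_iff_exists'.mp (hsome t)
  choose f hf using hex
  set ρ : Fin R → Fin R := fun i => f (col 0 i) with hρ
  have hρinj : Function.Injective ρ := by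
    intro i i' hii
    by_contra hne
    exact hsome _ (hadj _ _ (hcol 0 hL i i' hne) (by rw [hf, hf]; exact congrArg some hii))
  have hχ : ∀ t, χ (Sum.inl t) = some (ρ (cls t)) := by
    intro t
    obtain ⟨c, hc, hct⟩ := hcover t
    have := hconst c hc (cls t)
    rw [hct] at this
    rw [this, hf]
  -- sizes
  have hsz : ∀ i, (univ.filter fun t => cls t = ρ i).card = (univ.filter fun t => cls t = i).card := by
    intro i
    rw [← hcard (ρ i)]
    have h1 : (univ.filter fun p : T ⊕ Q => χ p = some (ρ i)) =
        (univ.filter fun t => cls t = i).map ⟨Sum.inl, Sum.inl_injective⟩ := by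
      ext p
      simp only [mem_filter, mem_univ, true_and, mem_map, Function.Embedding.coeFn_mk]
      constructor
      · intro hp
        rcases p with t | q
        · rw [hχ t] at hp
          exact ⟨t, hρinj (Option.some.inj hp), rfl⟩
        · rw [hnone q] at hp
          exact absurd hp (by simp)
      · rintro ⟨t, ht, rfl⟩
        rw [hχ t, ht]
    rw [h1, card_map]
  have hid : ∀ i, ρ i = i := by
    intro i
    have h := hsz i
    rcases lt_trichotomy (ρ i) i with hlt | heq | hgt
    · have := hw _ _ hlt; omega
    · exact heq
    · have := hw _ _ hgt; omega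
  intro t
  rw [hχ t, hid]

/-- **forced**: private frames + linked tops + strictly decreasing class sizes. -/
theorem forced (cls : T → Fin R) (χ : T ⊕ Q → Option (Fin R))
    (hcard : ∀ i : Fin R, (univ.filter fun p => χ p = some i).card =
      (univ.filter fun t => cls t = i).card)
    (Adj : T ⊕ Q → T ⊕ Q → Prop)
    (hadj : ∀ p p', Adj p p' → χ p = χ p' → χ p = none)
    (fr : Q → Bool → Fin R → T)
    (hinj : ∀ q e i q' e' i', fr q e i = fr q' e' i' → q = q' ∧ e = e')
    (hfull : ∀ q e i i', i ≠ i' → Adj (Sum.inl (fr q e i)) (Sum.inl (fr q e i')))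
    (hq : ∀ q e i, Adj (Sum.inr q) (Sum.inl (fr q e i)))
    (L : ℕ) (hL : 0 < L) (col : ℕ → Fin R → T)
    (hcol : ∀ c < L, ∀ i i', i ≠ i' → Adj (Sum.inl (col c i)) (Sum.inl (col c i')))
    (hstep : ∀ c, c + 1 < L → ∃ i, ∀ i', i' ≠ i → col (c + 1) i' = col c i')
    (hcover : ∀ t, ∃ c < L, col c (cls t) = t)
    (hw : ∀ i i' : Fin R, i < i' → (univ.filter fun t => cls t = i').card <
      (univ.filter fun t => cls t = i).card) :
    (∀ t, χ (Sum.inl t) = some (cls t)) ∧ ∀ q, χ (Sum.inr q) = none := by
  obtain ⟨h1, h2⟩ := frames cls χ hcard Adj hadj fr hinj hfull hq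
  exact ⟨link cls χ hcard h1 h2 Adj hadj L hL col hcol hstep hcover hw, h2⟩

end

end Vale.Agent.P181.H727
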