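import Vale.Agent.P181.H162.Round
import Vale.Agent.P181.H727.Forced7

set_option autoImplicit false

/-!
# P181, T7: existence of the top design with private frames (case (A))

Rows `i < R`; `lam i` columns have length `> i`; the free letter `q < N` serves the row `i` in
exactly `u q i` columns of exact length `R`; the pure letters of class `i` are `(i, g)`, `g < w i`.
-/

namespace Vale.Agent.P181.H727

open Finset

/-- the numbers of the design -/
structure Dat where
  R : ℕ
  k : ℕ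
  N : ℕ
  lam : ℕ → ℕ
  w : Fin R → ℕ
  u : Fin N → ℕ → ℕ
  W : ℕ
  Θ : ℕ
  hlam : Antitone lam
  hR : 2 ≤ R
  hu : ∀ q, ∀ i < R, 2 ≤ u q i
  h1 : ∀ i : Fin R, lam i = k * w i + ∑ q, u q i
  hpos : ∀ i, 0 < w i
  hW : ∀ i, w i ≤ W
  hN : ∀ i, 2 * N ≤ w i
  hΘ : ∑ q : Fin N, ∑ i : Fin R, u q i = Θ
  hex : lam R + Θ ≤ lam (R - 1)
  hroom : R * W + 2 * N + Θ ≤ lam (R - 1)
  hcap : ∀ i, R * (W / w i + 1) + 3 ≤ k

namespace Dat

variable (P : Dat)

/-- the marks -/
abbrev B : Type := Σ q : Fin P.N, Σ i : Fin P.R, Fin (P.u q i)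

theorem card_B : Fintype.card P.B = P.Θ := by
  simp only [Fintype.card_sigma, Fintype.card_fin]
  exact P.hΘ

/-- the columns of length at least `R` -/
def H : ℕ := P.lam (P.R - 1)

noncomputable def eB : P.B ≃ Fin P.Θ := Fintype.equivFinOfCardEq P.card_B

/-- the column of a mark -/
noncomputable def kap (x : P.B) : ℕ := P.H - P.Θ + P.eB x

theorem Θ_le : P.Θ ≤ P.H := by
  have := P.hex
  unfold H
  omega

theorem kap_lt (x : P.B) : P.kap x < P.H := by
  have := P.Θ_le
  have := (P.eB x).2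
  unfold kap
  omega

theorem le_kap (x : P.B) : P.H - P.Θ ≤ P.kap x := Nat.le_add_right _ _

theorem kap_inj : Function.Injective P.kap := by
  intro x y h
  unfold kap at h
  exact P.eB.injective (Fin.ext (by omega))

theorem H_le (i : Fin P.R) : P.H ≤ P.lam i := by
  have := i.2
  exact P.hlam (by omega)

/-- the marked columns of row `i` -/
noncomputable def mrk (i : Fin P.R) : Finset ℕ :=
  (univ.filter fun x : P.B => x.2.1 = i).image P.kap

theorem mem_mrk {i : Fin P.R} {c : ℕ} : c ∈ P.mrk i ↔ ∃ x : P.B, x.2.1 = i ∧ P.kap x = c := by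
  simp [mrk]

theorem card_row (q : Fin P.N) (i : Fin P.R) :
    (univ.filter fun x : P.B => x.1 = q ∧ x.2.1 = i).card = P.u q i := by
  classical
  have : (univ.filter fun x : P.B => x.1 = q ∧ x.2.1 = i) =
      (univ : Finset (Fin (P.u q i))).image (fun j => (⟨q, i, j⟩ : P.B)) := by
    ext ⟨q', i', j'⟩
    simp only [mem_filter, mem_univ, true_and, mem_image]
    constructor
    · rintro ⟨h1, h2⟩
      change q' = q at h1
      change i' = i at h2
      subst h1; subst h2
      exact ⟨j', rfl⟩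
    · rintro ⟨j, hj⟩
      cases hj
      exact ⟨rfl, rfl⟩
  rw [this, card_image_of_injective]
  · simp
  · intro j j' h
    simpa using h

theorem card_mrk (i : Fin P.R) : (P.mrk i).card = ∑ q, P.u q i := by
  classical
  rw [mrk, card_image_of_injective _ P.kap_inj]
  rw [card_eq_sum_card_fiberwise (f := fun x : P.B => x.1) (t := univ) (fun x _ => mem_univ _)]
  refine sum_congr rfl fun q _ => ?_
  rw [filter_filter, ← P.card_row q i]
  congr 1
  ext x
  simp only [mem_filter, mem_univ, true_and]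
  tauto

/-- the columns of row `i` served by pure letters -/
noncomputable def A (i : Fin P.R) : Finset ℕ := range (P.lam i) \ P.mrk i

theorem mrk_sub (i : Fin P.R) : P.mrk i ⊆ range (P.lam i) := by
  intro c hc
  obtain ⟨x, -, rfl⟩ := P.mem_mrk.mp hc
  exact mem_range.mpr (lt_of_lt_of_le (P.kap_lt x) (P.H_le i))

theorem card_A (i : Fin P.R) : (P.A i).card = P.k * P.w i := by
  rw [A, card_sdiff_of_subset (P.mrk_sub i), card_range, P.card_mrk, P.h1 i]
  omega

/-- the position of row `i` in the chain column `c` -/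
def pos (i : Fin P.R) (c : ℕ) : ℕ := ((c + (P.R - 1 - i)) / P.R) % P.w i

theorem pos_lt (i : Fin P.R) (c : ℕ) : P.pos i c < P.w i := Nat.mod_lt _ (P.hpos i)

open Classical in
/-- the prescribed servers -/
noncomputable def pre (i : Fin P.R) (c : ℕ) : Option ℕ :=
  if c < P.R * P.W then some (P.pos i c)
  else if c < P.R * P.W + 2 * P.N then some (c - P.R * P.W)
  else if h : ∃ x : P.B, P.kap x = c ∧ (x.2.1 : ℕ) < 2 ∧ (x.2.2 : ℕ) < 2 then
    some (2 * (h.choose.1 : ℕ) + h.choose.2.2)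
  else none

theorem pre_chain (i : Fin P.R) {c : ℕ} (hc : c < P.R * P.W) : P.pre i c = some (P.pos i c) := by
  unfold pre
  rw [if_pos hc]

theorem pre_frame (i : Fin P.R) {c : ℕ} (hc : c < 2 * P.N) :
    P.pre i (P.R * P.W + c) = some c := by
  unfold pre
  rw [if_neg (by omega), if_pos (by omega)]
  congr 1
  omega

theorem kap_ge (x : P.B) : P.R * P.W + 2 * P.N ≤ P.kap x := by
  have := P.le_kap x
  have := P.hroom
  have h : P.H = P.lam (P.R - 1) := rfl
  omega

theorem pre_mark (i : Fin P.R) (x : P.B) (h1 : (x.2.1 : ℕ) < 2) (h2 : (x.2.2 : ℕ) < 2) :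
    P.pre i (P.kap x) = some (2 * (x.1 : ℕ) + x.2.2) := by
  have hk := P.kap_ge x
  have hex : ∃ y : P.B, P.kap y = P.kap x ∧ (y.2.1 : ℕ) < 2 ∧ (y.2.2 : ℕ) < 2 :=
    ⟨x, rfl, h1, h2⟩
  unfold pre
  rw [if_neg (by omega), if_neg (by omega), dif_pos hex]
  have := P.kap_inj hex.choose_spec.1
  rw [this]

/-- the prescribed columns of the letter `g` of row `i` -/
noncomputable def S (i : Fin P.R) (g : Fin (P.w i)) : Finset ℕ :=
  (P.A i).filter fun c => P.pre i c = some (g : ℕ)

theorem card_chain (i : Fin P.R) (g : ℕ) :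
    ((range (P.R * P.W)).filter fun c => P.pos i c = g).card ≤ P.R * (P.W / P.w i + 1) := by
  classical
  have hRpos : 0 < P.R := by have := P.hR; omega
  have hi := i.2
  have : ((range (P.R * P.W)).filter fun c => P.pos i c = g).card ≤
      (range P.R ×ˢ range (P.W / P.w i + 1)).card := by
    refine card_le_card_of_injOn
      (fun c => ((c + (P.R - 1 - i)) % P.R, ((c + (P.R - 1 - i)) / P.R) / P.w i)) ?_ ?_
    · intro c hc
      simp only [coe_filter, mem_range, Set.mem_ofPred_eq] at hc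
      simp only [coe_product, coe_range, Set.mem_prod, Set.mem_Iio]
      refine ⟨Nat.mod_lt _ hRpos, ?_⟩
      have h1 : (c + (P.R - 1 - i)) / P.R ≤ P.W := by
        have : (c + (P.R - 1 - i)) / P.R < P.W + 1 := by
          rw [Nat.div_lt_iff_lt_mul hRpos]
          have : (P.W + 1) * P.R = P.R * P.W + P.R := by ring
          omega
        omega
      exact Nat.lt_succ_of_le (Nat.div_le_div_right h1)
    · intro c hc c' hc' h
      simp only [coe_filter, mem_range, Set.mem_ofPred_eq] at hc hc'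
      simp only [Prod.mk.injEq] at h
      obtain ⟨h1, h2⟩ := h
      have e1 : P.pos i c = P.pos i c' := hc.2.trans hc'.2.symm
      unfold pos at e1
      have e2 : (c + (P.R - 1 - i)) / P.R = (c' + (P.R - 1 - i)) / P.R := by
        have a1 := Nat.div_add_mod ((c + (P.R - 1 - i)) / P.R) (P.w i)
        have a2 := Nat.div_add_mod ((c' + (P.R - 1 - i)) / P.R) (P.w i)
        rw [← a1, ← a2, h2, e1]
      have b1 := Nat.div_add_mod (c + (P.R - 1 - i)) P.R
      have b2 := Nat.div_add_mod (c' + (P.R - 1 - i)) P.R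
      rw [e2, h1] at b1
      omega
  simpa using this

theorem card_S (i : Fin P.R) (g : Fin (P.w i)) : (P.S i g).card ≤ P.k := by
  classical
  have hcap := P.hcap i
  set X1 := (range (P.R * P.W)).filter fun c => P.pos i c = (g : ℕ) with hX1
  set X2 : Finset ℕ := {P.R * P.W + (g : ℕ)} with hX2
  set X3 : Finset ℕ := (univ.filter fun x : P.B => (x.2.1 : ℕ) < 2 ∧ (x.2.2 : ℕ) < 2 ∧
    2 * (x.1 : ℕ) + x.2.2 = g).image P.kap with hX3
  have hsub : P.S i g ⊆ X1 ∪ (X2 ∪ X3) := by
    intro c hc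
    simp only [S, mem_filter] at hc
    have h := hc.2
    rw [mem_union, mem_union]
    unfold pre at h
    split_ifs at h with h1 h2 h3
    · left
      rw [hX1, mem_filter, mem_range]
      exact ⟨h1, Option.some.inj h⟩
    · right; left
      rw [hX2, mem_singleton]
      have := Option.some.inj h
      omega
    · right; right
      rw [hX3, mem_image]
      refine ⟨h3.choose, ?_, h3.choose_spec.1⟩
      rw [mem_filter]
      exact ⟨mem_univ _, h3.choose_spec.2.1, h3.choose_spec.2.2, Option.some.inj h⟩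
  have h1 : X1.card ≤ P.R * (P.W / P.w i + 1) := P.card_chain i g
  have h2 : X2.card = 1 := by rw [hX2, card_singleton]
  have h3 : X3.card ≤ 2 := by
    rw [hX3, card_image_of_injective _ P.kap_inj]
    have : (univ.filter fun x : P.B => (x.2.1 : ℕ) < 2 ∧ (x.2.2 : ℕ) < 2 ∧
        2 * (x.1 : ℕ) + x.2.2 = g).card ≤ (range 2).card := by
      refine card_le_card_of_injOn (fun x => (x.2.1 : ℕ)) ?_ ?_
      · intro x hx
        simp only [coe_filter, mem_univ, true_and, Set.mem_ofPred_eq] at hx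
        simpa using hx.1
      · rintro ⟨q, r, j⟩ hx ⟨q', r', j'⟩ hx' hrr
        simp only [coe_filter, mem_univ, true_and, Set.mem_ofPred_eq] at hx hx' hrr
        have hr : r = r' := Fin.ext hrr
        have hq : q = q' := Fin.ext (by omega)
        subst hr; subst hq
        have hj : j = j' := Fin.ext (by omega)
        subst hj
        rfl
    simpa using this
  calc (P.S i g).card ≤ (X1 ∪ (X2 ∪ X3)).card := card_le_card hsub
    _ ≤ X1.card + (X2 ∪ X3).card := card_union_le _ _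
    _ ≤ X1.card + (X2.card + X3.card) := by
        have := card_union_le X2 X3
        omega
    _ ≤ P.k := by omega

theorem exists_pi (i : Fin P.R) : ∃ π : ℕ → Fin (P.w i),
    (∀ g, ((P.A i).filter fun c => π c = g).card = P.k) ∧ ∀ g, ∀ c ∈ P.S i g, π c = g := by
  classical
  have : Nonempty (Fin (P.w i)) := ⟨⟨0, P.hpos i⟩⟩
  refine H162.exists_assign (P.A i) (fun _ => P.k) ?_ (P.S i) (fun g => filter_subset _ _) ?_
    (P.card_S i)
  · rw [P.card_A]
    simp [mul_comm]
  · intro g g' hgg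
    rw [disjoint_left]
    intro c hc hc'
    simp only [S, mem_filter] at hc hc'
    have := hc.2.symm.trans hc'.2
    exact hgg (Fin.ext (Option.some.inj this))

/-- the pure server of row `i` in column `c` -/
noncomputable def pi (i : Fin P.R) : ℕ → Fin (P.w i) := (P.exists_pi i).choose

theorem card_pi (i : Fin P.R) (g : Fin (P.w i)) :
    ((P.A i).filter fun c => P.pi i c = g).card = P.k := (P.exists_pi i).choose_spec.1 g

theorem pi_pre (i : Fin P.R) {c : ℕ} (hc : c ∈ P.A i) {g : ℕ} (hg : g < P.w i)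
    (h : P.pre i c = some g) : P.pi i c = ⟨g, hg⟩ := by
  refine (P.exists_pi i).choose_spec.2 ⟨g, hg⟩ c ?_
  simp only [S, mem_filter]
  exact ⟨hc, h⟩

/-- the pure letters -/
abbrev T : Type := Σ i : Fin P.R, Fin (P.w i)

theorem R_pos : 0 < P.R := by have := P.hR; omega

open Classical in
/-- the servers -/
noncomputable def srv (c i : ℕ) : P.T ⊕ Fin P.N :=
  if h : i < P.R then
    if hb : ∃ x : P.B, (x.2.1 : ℕ) = i ∧ P.kap x = c then Sum.inr hb.choose.1
    else Sum.inl ⟨⟨i, h⟩, P.pi ⟨i, h⟩ c⟩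
  else Sum.inl ⟨⟨0, P.R_pos⟩, P.pi ⟨0, P.R_pos⟩ c⟩

theorem srv_kap (x : P.B) : P.srv (P.kap x) x.2.1 = Sum.inr x.1 := by
  have h : (x.2.1 : ℕ) < P.R := x.2.1.2
  have hb : ∃ y : P.B, (y.2.1 : ℕ) = x.2.1 ∧ P.kap y = P.kap x := ⟨x, rfl, rfl⟩
  unfold srv
  rw [dif_pos h, dif_pos hb]
  congr 1
  rw [P.kap_inj hb.choose_spec.2]

theorem srv_pure (i : Fin P.R) {c : ℕ} (hc : c ∉ P.mrk i) :
    P.srv c i = Sum.inl ⟨i, P.pi i c⟩ := by
  have hb : ¬ ∃ x : P.B, (x.2.1 : ℕ) = i ∧ P.kap x = c := by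
    rintro ⟨x, hx, hxc⟩
    exact hc (P.mem_mrk.mpr ⟨x, Fin.ext hx, hxc⟩)
  unfold srv
  rw [dif_pos i.2, dif_neg hb]

theorem srv_of_mrk (i : Fin P.R) {c : ℕ} (hc : c ∈ P.mrk i) : ∃ q, P.srv c i = Sum.inr q := by
  obtain ⟨x, rfl, rfl⟩ := P.mem_mrk.mp hc
  exact ⟨x.1, P.srv_kap x⟩

theorem mrk_unique {i i' : Fin P.R} {c : ℕ} (h : c ∈ P.mrk i) (h' : c ∈ P.mrk i') : i = i' := by
  obtain ⟨x, rfl, rfl⟩ := P.mem_mrk.mp h
  obtain ⟨y, rfl, hy⟩ := P.mem_mrk.mp h'
  rw [P.kap_inj hy]

theorem mrk_ge {i : Fin P.R} {c : ℕ} (h : c ∈ P.mrk i) :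
    P.R * P.W + 2 * P.N ≤ c ∧ P.lam P.R ≤ c ∧ c < P.lam (P.R - 1) := by
  obtain ⟨x, rfl, rfl⟩ := P.mem_mrk.mp h
  refine ⟨P.kap_ge x, ?_, P.kap_lt x⟩
  have := P.le_kap x
  have := P.hex
  have h : P.H = P.lam (P.R - 1) := rfl
  omega

/-- **serve** -/
theorem serve (i : ℕ) (hi : i < P.R) (c : ℕ) (hc : c < P.lam i) :
    (∃ t : P.T, P.srv c i = Sum.inl t ∧ (t.1 : ℕ) = i) ∨
    (P.lam P.R ≤ c ∧ c < P.lam (P.R - 1) ∧ (∃ q, P.srv c i = Sum.inr q) ∧
      ∀ i' < P.R, i' ≠ i → ∃ t : P.T, P.srv c i' = Sum.inl t ∧ (t.1 : ℕ) = i') := by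
  by_cases h : c ∈ P.mrk ⟨i, hi⟩
  · right
    refine ⟨(P.mrk_ge h).2.1, (P.mrk_ge h).2.2, P.srv_of_mrk ⟨i, hi⟩ h, ?_⟩
    intro i' hi' hne
    have h' : c ∉ P.mrk ⟨i', hi'⟩ := by
      intro h'
      have := P.mrk_unique h h'
      simp only [Fin.mk.injEq] at this
      exact hne this.symm
    exact ⟨_, P.srv_pure ⟨i', hi'⟩ h', rfl⟩
  · left
    exact ⟨_, P.srv_pure ⟨i, hi⟩ h, rfl⟩

/-- **typ** -/
theorem typ (q : Fin P.N) (i : ℕ) (hi : i < P.R) :
    ((range (P.lam i)).filter fun c => P.srv c i = Sum.inr q).card = P.u q i := by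
  classical
  have : ((range (P.lam i)).filter fun c => P.srv c i = Sum.inr q) =
      (univ.filter fun x : P.B => x.1 = q ∧ x.2.1 = ⟨i, hi⟩).image P.kap := by
    ext c
    simp only [mem_filter, mem_range, mem_image, mem_univ, true_and]
    constructor
    · rintro ⟨hc, hs⟩
      by_cases h : c ∈ P.mrk ⟨i, hi⟩
      · obtain ⟨x, hx, rfl⟩ := P.mem_mrk.mp h
        have h2 := P.srv_kap x
        rw [hx] at h2
        have h3 : (Sum.inr x.1 : P.T ⊕ Fin P.N) = Sum.inr q := h2.symm.trans hs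
        exact ⟨x, ⟨Sum.inr.inj h3, hx⟩, rfl⟩
      · have h2 := P.srv_pure ⟨i, hi⟩ h
        rw [show P.srv c i = P.srv c ((⟨i, hi⟩ : Fin P.R) : ℕ) from rfl, h2] at hs
        exact absurd hs (by simp)
    · rintro ⟨x, ⟨hx1, hx2⟩, rfl⟩
      constructor
      · exact lt_of_lt_of_le (P.kap_lt x) (P.H_le ⟨i, hi⟩)
      · have h2 := P.srv_kap x
        rw [hx2, hx1] at h2
        exact h2
  rw [this, card_image_of_injective _ P.kap_inj]
  exact P.card_row q ⟨i, hi⟩

/-- **inc** -/
theorem inc (t : P.T) :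
    ((range (P.lam t.1)).filter fun c => P.srv c t.1 = Sum.inl t).card = P.k := by
  classical
  obtain ⟨i, g⟩ := t
  rw [← P.card_pi i g]
  congr 1
  ext c
  simp only [mem_filter, A, mem_sdiff, mem_range]
  constructor
  · rintro ⟨hc, hs⟩
    have h : c ∉ P.mrk i := by
      intro h
      obtain ⟨q, hq⟩ := P.srv_of_mrk i h
      rw [hq] at hs
      exact absurd hs (by simp)
    rw [P.srv_pure i h] at hs
    have h3 := Sum.inl.inj hs
    simp only [Sigma.mk.injEq, heq_eq_eq, true_and] at h3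
    exact ⟨⟨hc, h⟩, h3⟩
  · rintro ⟨⟨hc, h⟩, hg⟩
    refine ⟨hc, ?_⟩
    rw [P.srv_pure i h, hg]

theorem mem_A_of_lt (i : Fin P.R) {c : ℕ} (hc : c < P.R * P.W + 2 * P.N) : c ∈ P.A i := by
  simp only [A, mem_sdiff, mem_range]
  constructor
  · have := P.hroom
    have := P.H_le i
    have h : P.H = P.lam (P.R - 1) := rfl
    omega
  · intro h
    have := (P.mrk_ge h).1
    omega

theorem srv_chain (i : Fin P.R) {c : ℕ} (hc : c < P.R * P.W) :
    P.srv c i = Sum.inl ⟨i, ⟨P.pos i c, P.pos_lt i c⟩⟩ := by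
  have hA := P.mem_A_of_lt i (c := c) (by omega)
  have h : c ∉ P.mrk i := (mem_sdiff.mp hA).2
  rw [P.srv_pure i h, P.pi_pre i hA (P.pos_lt i c) (P.pre_chain i hc)]

theorem srv_frame (i : Fin P.R) {g : ℕ} (hg : g < 2 * P.N) :
    P.srv (P.R * P.W + g) i = Sum.inl ⟨i, ⟨g, lt_of_lt_of_le hg (P.hN i)⟩⟩ := by
  have hA := P.mem_A_of_lt i (c := P.R * P.W + g) (by omega)
  have h : P.R * P.W + g ∉ P.mrk i := (mem_sdiff.mp hA).2
  rw [P.srv_pure i h, P.pi_pre i hA (lt_of_lt_of_le hg (P.hN i)) (P.pre_frame i hg)]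

theorem srv_mark (i : Fin P.R) (x : P.B) (hne : x.2.1 ≠ i) (h1 : (x.2.1 : ℕ) < 2)
    (h2 : (x.2.2 : ℕ) < 2) (hg : 2 * (x.1 : ℕ) + x.2.2 < P.w i) :
    P.srv (P.kap x) i = Sum.inl ⟨i, ⟨2 * (x.1 : ℕ) + x.2.2, hg⟩⟩ := by
  have h : P.kap x ∉ P.mrk i := by
    intro h
    have h' : P.kap x ∈ P.mrk x.2.1 := P.mem_mrk.mpr ⟨x, rfl, rfl⟩
    exact hne (P.mrk_unique h' h)
  have hA : P.kap x ∈ P.A i := by
    simp only [A, mem_sdiff, mem_range]
    exact ⟨lt_of_lt_of_le (P.kap_lt x) (P.H_le i), h⟩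
  rw [P.srv_pure i h, P.pi_pre i hA hg (P.pre_mark i x h1 h2)]

theorem card_cls (i : Fin P.R) : (univ.filter fun t : P.T => t.1 = i).card = P.w i := by
  classical
  have : (univ.filter fun t : P.T => t.1 = i) =
      (univ : Finset (Fin (P.w i))).image (fun g => (⟨i, g⟩ : P.T)) := by
    ext ⟨i', g'⟩
    simp only [mem_filter, mem_univ, true_and, mem_image]
    constructor
    · intro h
      change i' = i at h
      subst h
      exact ⟨g', rfl⟩
    · rintro ⟨g, hg⟩
      cases hg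
      rfl
  rw [this, card_image_of_injective]
  · simp
  · intro g g' h
    simpa using h

/-- **forced** -/
theorem forced (hw : StrictAnti P.w) (χ : P.T ⊕ Fin P.N → Option (Fin P.R))
    (hcard : ∀ i, (univ.filter fun p => χ p = some i).card = P.w i)
    (hcol : ∀ c < P.lam (P.R - 1), ∀ i < P.R, ∀ i' < P.R, i ≠ i' →
      χ (P.srv c i) = χ (P.srv c i') → χ (P.srv c i) = none) :
    (∀ t : P.T, χ (Sum.inl t) = some t.1) ∧ ∀ q, χ (Sum.inr q) = none := by
  classical
  have hR := P.hR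
  have hRpos := P.R_pos
  have hHge : P.R * P.W + 2 * P.N ≤ P.lam (P.R - 1) := by
    have := P.hroom
    omega
  let Adj : P.T ⊕ Fin P.N → P.T ⊕ Fin P.N → Prop := fun p p' =>
    ∃ c < P.lam (P.R - 1), ∃ i < P.R, ∃ i' < P.R, i ≠ i' ∧ P.srv c i = p ∧ P.srv c i' = p'
  have hadj : ∀ p p', Adj p p' → χ p = χ p' → χ p = none := by
    rintro p p' ⟨c, hc, i, hi, i', hi', hne, rfl, rfl⟩ h
    exact hcol c hc i hi i' hi' hne h
  have hsymm : ∀ p p', Adj p p' → Adj p' p := by
    rintro p p' ⟨c, hc, i, hi, i', hi', hne, h1, h2⟩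
    exact ⟨c, hc, i', hi', i, hi, hne.symm, h2, h1⟩
  have hWpos : ∀ i : Fin P.R, P.w i ≤ P.W := P.hW
  have hlt : ∀ (q : Fin P.N) (e : Bool), 2 * (q : ℕ) + (if e then 1 else 0) < 2 * P.N := by
    intro q e
    have := q.2
    split_ifs <;> omega
  have hlt2 : ∀ (q : Fin P.N) (e : Bool) (i : Fin P.R),
      2 * (q : ℕ) + (if e then 1 else 0) < P.w i := fun q e i =>
    lt_of_lt_of_le (hlt q e) (P.hN i)
  refine H727.forced (T := P.T) (Q := Fin P.N) (R := P.R) (fun t => t.1) χ
    (fun i => by rw [hcard i, P.card_cls i]) Adj hadj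
    (fun q e i => ⟨i, ⟨2 * (q : ℕ) + (if e then 1 else 0), hlt2 q e i⟩⟩) ?_ ?_ ?_
    (P.R * P.W) ?_ (fun c i => ⟨i, ⟨P.pos i c, P.pos_lt i c⟩⟩) ?_ ?_ ?_ ?_
  · intro q e i q' e' i' h
    simp only [Sigma.mk.injEq] at h
    obtain ⟨rfl, h2⟩ := h
    simp only [heq_eq_eq, Fin.mk.injEq] at h2
    cases e <;> cases e' <;> simp at h2 ⊢ <;> first | exact Fin.ext (by omega) | omega
  · intro q e i i' hne
    refine ⟨P.R * P.W + (2 * (q : ℕ) + (if e then 1 else 0)), ?_, i, i.2, i', i'.2, ?_,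
      P.srv_frame i (hlt q e), P.srv_frame i' (hlt q e)⟩
    · have := hlt q e
      omega
    · intro h
      exact hne (Fin.ext h)
  · intro q e i
    by_cases hi0 : (i : ℕ) = 0
    · -- the mark in row 1
      have h2 : (if e then 1 else 0) < P.u q 1 := by
        have := P.hu q 1 (by omega)
        split_ifs <;> omega
      let x : P.B := ⟨q, ⟨1, by omega⟩, ⟨if e then 1 else 0, h2⟩⟩
      refine ⟨P.kap x, P.kap_lt x, 1, by omega, i, i.2, by omega, P.srv_kap x, ?_⟩
      exact P.srv_mark i x (by intro h; have := congrArg Fin.val h; simp [x] at this; omega)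
        (by simp [x]) (by simp only [x]; split_ifs <;> omega) (hlt2 q e i)
    · have h2 : (if e then 1 else 0) < P.u q 0 := by
        have := P.hu q 0 (by omega)
        split_ifs <;> omega
      let x : P.B := ⟨q, ⟨0, hRpos⟩, ⟨if e then 1 else 0, h2⟩⟩
      refine ⟨P.kap x, P.kap_lt x, 0, hRpos, i, i.2, by omega, P.srv_kap x, ?_⟩
      exact P.srv_mark i x (by intro h; have := congrArg Fin.val h; simp [x] at this; omega)
        (by simp [x]) (by simp only [x]; split_ifs <;> omega) (hlt2 q e i)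
  · have h0 := P.hpos ⟨0, hRpos⟩
    have h1 := P.hW ⟨0, hRpos⟩
    exact Nat.mul_pos hRpos (by omega)
  · intro c hc i i' hne
    refine ⟨c, by omega, i, i.2, i', i'.2, ?_, P.srv_chain i hc, P.srv_chain i' hc⟩
    intro h
    exact hne (Fin.ext h)
  · intro c hc
    refine ⟨⟨c % P.R, Nat.mod_lt _ hRpos⟩, ?_⟩
    intro i' hne
    have hne' : (i' : ℕ) ≠ c % P.R := fun h => hne (Fin.ext h)
    have hi' := i'.2
    have hpos' : P.pos i' (c + 1) = P.pos i' c := by
      unfold pos
      congr 1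
      -- (c + 1 + (R - 1 - i')) / R = (c + (R - 1 - i')) / R
      have hm := Nat.div_add_mod c P.R
      have hml := Nat.mod_lt c hRpos
      set r := c % P.R with hr
      set d := c / P.R with hd
      by_cases hlt : r < i'
      · have e1 : c + 1 + (P.R - 1 - i') = (r + 1 + (P.R - 1 - i')) + P.R * d := by omega
        have e2 : c + (P.R - 1 - i') = (r + (P.R - 1 - i')) + P.R * d := by omega
        rw [e1, e2, Nat.add_mul_div_left _ _ hRpos, Nat.add_mul_div_left _ _ hRpos,
          Nat.div_eq_of_lt (by omega), Nat.div_eq_of_lt (by omega)]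
      · have hgt : (i' : ℕ) < r := by omega
        have e1 : c + 1 + (P.R - 1 - i') = (r - i') + P.R * (d + 1) := by
          rw [Nat.mul_add, Nat.mul_one]
          omega
        have e2 : c + (P.R - 1 - i') = (r - i' - 1) + P.R * (d + 1) := by
          rw [Nat.mul_add, Nat.mul_one]
          omega
        rw [e1, e2, Nat.add_mul_div_left _ _ hRpos, Nat.add_mul_div_left _ _ hRpos,
          Nat.div_eq_of_lt (by omega), Nat.div_eq_of_lt (by omega)]
    simp only [hpos']
  · rintro ⟨i, g⟩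
    have hi := i.2
    have hg := g.2
    have hcalc : P.pos i (P.R * g + i) = g := by
      unfold pos
      have e1 : P.R * g + i + (P.R - 1 - i) = (P.R - 1) + P.R * g := by omega
      rw [e1, Nat.add_mul_div_left _ _ hRpos, Nat.div_eq_of_lt (by omega), zero_add,
        Nat.mod_eq_of_lt hg]
    refine ⟨P.R * g + i, ?_, ?_⟩
    · have h1 : (g : ℕ) + 1 ≤ P.W := by
        have := P.hW i
        omega
      calc P.R * g + i < P.R * g + P.R := by omega
        _ = P.R * (g + 1) := by ring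
        _ ≤ P.R * P.W := Nat.mul_le_mul_left _ h1
    · simp only [Sigma.mk.injEq, heq_eq_eq, true_and]
      exact Fin.ext hcalc
  · intro i i' hii
    rw [P.card_cls, P.card_cls]
    exact hw hii

end Dat

end Vale.Agent.P181.H727
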